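import Vale.Agent.P305EN.Math
import Vale.Agent.P305N.Basic
import Vale.Agent.P305BL.Store
import Vale.Agent.P305BG.Arcs

/-!
# From names to vertices: a closed set of names is dissolved
-/

namespace Vale.Agent.P305EN

open Vale.Agent.P305 Vale.Agent.P305E Vale.Agent.P305C Vale.Agent.P305BL Vale.Agent.P305O
  Vale.Agent.P305N Vale.Agent.P305BG Finset

/-- The tails of the arcs into `Ys`. -/
def tails (V : Vw) (Ys : Finset ℕ) : Finset ℕ :=
  (Ys.biUnion fun y => {V.tl (3 * y), V.tl (3 * y + 1), V.tl (3 * y + 2)}).erase 0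

theorem mem_tails {V : Vw} {Ys : Finset ℕ} {p : ℕ} :
    p ∈ tails V Ys ↔ ∃ k, k / 3 ∈ Ys ∧ V.tl k ≠ 0 ∧ V.tl k = p := by
  simp only [tails, mem_erase, mem_biUnion, mem_insert, mem_singleton]
  constructor
  · rintro ⟨h0, y, hy, h | h | h⟩
    · exact ⟨3 * y, by rwa [show 3 * y / 3 = y by omega], h ▸ h0, h.symm⟩
    · exact ⟨3 * y + 1, by rwa [show (3 * y + 1) / 3 = y by omega], h ▸ h0, h.symm⟩
    · exact ⟨3 * y + 2, by rwa [show (3 * y + 2) / 3 = y by omega], h ▸ h0, h.symm⟩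
  · rintro ⟨k, hk, h0, rfl⟩
    refine ⟨h0, k / 3, hk, ?_⟩
    have : k = 3 * (k / 3) ∨ k = 3 * (k / 3) + 1 ∨ k = 3 * (k / 3) + 2 := by omega
    rcases this with h | h | h
    · exact Or.inl (congrArg V.tl h)
    · exact Or.inr (Or.inl (congrArg V.tl h))
    · exact Or.inr (Or.inr (congrArg V.tl h))

theorem cls_tails {V : Vw} {b : ℕ} (h : V.OK b) {Ys : Finset ℕ} (hY : Ys ⊆ V.I) :
    V.Cls (tails V Ys) Ys :=
  ⟨fun p hp => by
    obtain ⟨k, -, h0, rfl⟩ := mem_tails.1 hp
    exact (h.arc k h0).1, hY, fun k hk h0 => mem_tails.2 ⟨k, hk, h0, rfl⟩⟩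

/-- The link between names and vertices: `top p` is the node of the store for the outer name `p`,
`vx y` the vertex of the inner name `y`, `nb k` the outer vertex of the arc with the key `k`. -/
structure Emb (n : ℕ) (A : ℕ → ℕ → Prop) (s : St) (V : Vw) (top vx nb : ℕ → ℕ) : Prop where
  node : ∀ p ∈ V.P, s.Node n A (top p)
  disj : ∀ p ∈ V.P, ∀ q ∈ V.P, p ≠ q → Disjoint (s.V n (top p)) (s.V n (top q))
  inj : Set.InjOn vx V.I
  inn : ∀ y ∈ V.I, vx y < n ∧ ∀ p ∈ V.P, vx y ∉ s.V n (top p)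
  arc : ∀ k, V.tl k ≠ 0 → nb k ∈ s.V n (top (V.tl k)) ∧ A (nb k) (vx (k / 3))

/-- The vertices of a set of names. -/
def vts (n : ℕ) (s : St) (top vx : ℕ → ℕ) (Ps Ys : Finset ℕ) : Finset ℕ :=
  (Ps.biUnion fun p => s.V n (top p)) ∪ Ys.image vx

/-- The names in a piece are replaced by nodes of the store and vertices. -/
def renP (top vx nb : ℕ → ℕ) (D : Pc) : M Pc :=
  mapP top D.1 >>= fun P => mapP vx D.2.1 >>= fun Y =>
    mapP (fun e : Tr => (top e.1, nb e.2.1, vx e.2.2)) D.2.2 >>= fun E => pure (P, Y, E)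

/-- The renamed piece. -/
def renD (top vx nb : ℕ → ℕ) (D : Pc) : Pc :=
  (D.1.map top, D.2.1.map vx, D.2.2.map (ren top vx fun e => nb e.2.1))

@[fun_prop] theorem impl_renP {α : Type} [Rep α] {top vx nb : α → ℕ → ℕ} {D : α → Pc}
    (h1 : Pure fun p : α × ℕ => top p.1 p.2) (h2 : Pure fun p : α × ℕ => vx p.1 p.2)
    (h3 : Pure fun p : α × ℕ => nb p.1 p.2) (h : Pure D) :
    Impl fun a => renP (top a) (vx a) (nb a) (D a) := by
  unfold renP
  fun_prop

theorem renP_tri {c : Cx} (top vx nb : ℕ → ℕ) (D : Pc) : Tri c (renP top vx nb D) fun r t =>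
    r = renD top vx nb D ∧ t = D.1.length + D.2.1.length + D.2.2.length := by
  simp only [renP, Tri_bind, Tri_mapP, Tri_pure]
  exact ⟨rfl, by omega⟩

variable {n : ℕ} {A : ℕ → ℕ → Prop} {s : St} {V : Vw} {top vx nb : ℕ → ℕ} {D : Pc}

theorem Emb.injP (h : Emb n A s V top vx nb) : Set.InjOn top V.P := fun p hp q hq e => by
  by_contra ne
  have := h.disj p hp q hq ne
  rw [e, disjoint_self] at this
  exact (h.node q hq).nonempty.ne_empty this

theorem pc_memP (hD : Piece V D) {p : ℕ} (hp : p ∈ D.1) : p ∈ V.P :=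
  hD.cls.2.2.sP (List.mem_toFinset.2 hp)

theorem pc_memI (hD : Piece V D) {y : ℕ} (hy : y ∈ D.2.1) : y ∈ V.I :=
  hD.cls.2.2.sI (List.mem_toFinset.2 hy)

theorem Emb.nodupP (h : Emb n A s V top vx nb) (hD : Piece V D) : (renD top vx nb D).1.Nodup :=
  hD.cls.1.map_on fun _ hp _ hq e => h.injP (pc_memP hD hp) (pc_memP hD hq) e

theorem Emb.nodupY (h : Emb n A s V top vx nb) (hD : Piece V D) : (renD top vx nb D).2.1.Nodup :=
  hD.cls.2.1.map_on fun _ hp _ hq e => h.inj (pc_memI hD hp) (pc_memI hD hq) e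

theorem Emb.nodes (h : Emb n A s V top vx nb) (hD : Piece V D) :
    ∀ p ∈ (renD top vx nb D).1, s.Node n A p := fun p hp => by
  obtain ⟨q, hq, rfl⟩ := List.mem_map.1 hp
  exact h.node q (pc_memP hD hq)

theorem Emb.part (h : Emb n A s V top vx nb) (hD : Piece V D) :
    Part n A (s.V n) (renD top vx nb D).1.toFinset (renD top vx nb D).2.1.toFinset
      (renD top vx nb D).2.2 := by
  refine ⟨fun p hp q hq ne => ?_, fun y hy => ?_, fun e he => ?_⟩
  · obtain ⟨p', hp', rfl⟩ := List.mem_map.1 (List.mem_toFinset.1 hp)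
    obtain ⟨q', hq', rfl⟩ := List.mem_map.1 (List.mem_toFinset.1 hq)
    exact h.disj _ (pc_memP hD hp') _ (pc_memP hD hq') fun e => ne (congrArg top e)
  · obtain ⟨y', hy', rfl⟩ := List.mem_map.1 (List.mem_toFinset.1 hy)
    refine ⟨(h.inn _ (pc_memI hD hy')).1, fun p hp => ?_⟩
    obtain ⟨p', hp', rfl⟩ := List.mem_map.1 (List.mem_toFinset.1 hp)
    exact (h.inn _ (pc_memI hD hy')).2 _ (pc_memP hD hp')
  · obtain ⟨e', he', rfl⟩ := List.mem_map.1 he
    obtain ⟨a1, a2, a3, a4⟩ := (hD.arc.mem e').1 he'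
    have a := h.arc e'.2.1 (a3 ▸ a4)
    rw [a3, a2] at a
    exact ⟨List.mem_toFinset.2 (List.mem_map_of_mem (hD.arc.sub hD.cls e' he').1), a.1,
      List.mem_toFinset.2 (List.mem_map_of_mem a1), a.2⟩

theorem vts_eq (n : ℕ) (s : St) (top vx nb : ℕ → ℕ) (D : Pc) :
    (renD top vx nb D).1.toFinset.biUnion (s.V n) ∪ (renD top vx nb D).2.1.toFinset =
      vts n s top vx D.1.toFinset D.2.1.toFinset := by
  ext v
  simp only [renD, vts, mem_union, mem_biUnion, List.mem_toFinset, List.mem_map, mem_image,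
    exists_exists_and_eq_and]

/-- A matching of names is a matching of the renamed piece. -/
theorem Emb.isM (h : Emb n A s V top vx nb) (hD : Piece V D) {l : List Tr} (hl : IsM D.2.2 l) :
    ∃ l', IsM (renD top vx nb D).2.2 l' ∧ l'.length = l.length := by
  refine ⟨_, hl.map (fun e => nb e.2.1) (h.injP.mono fun p hp => ?_) (h.inj.mono fun y hy => ?_),
    List.length_map _⟩
  · obtain ⟨e, he, rfl⟩ := mem_nodes.1 hp
    exact pc_memP hD (hD.arc.sub hD.cls e he).1
  · obtain ⟨e, he, rfl⟩ := mem_inns.1 hy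
    exact pc_memI hD (hD.arc.sub hD.cls e he).2

/-- If closed sets have the defect at most `d`, then a largest matching of the renamed piece
misses at most `d` inner vertices. -/
theorem Emb.hall {b d : ℕ} (h : Emb n A s V top vx nb) (ok : V.OK b) (hD : Piece V D)
    (hd : ∀ Ps Ys, V.Cls Ps Ys → Ys ⊆ D.2.1.toFinset → Ys.card ≤ Ps.card + d) {l : List Tr}
    (hl : MaxM (renD top vx nb D).2.2 l) : D.2.1.length ≤ l.length + d := by
  have e : (renD top vx nb D).2.1.toFinset.card = D.2.1.length := by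
    rw [List.toFinset_card_of_nodup (h.nodupY hD)]
    exact List.length_map _
  rw [← e]
  refine hall_inn hl fun Y hY => ?_
  have hc := cls_tails ok (Ys := D.2.1.toFinset.filter fun y => vx y ∈ Y)
    ((filter_subset _ _).trans hD.cls.2.2.sI)
  have a : Y.card ≤ (D.2.1.toFinset.filter fun y => vx y ∈ Y).card := by
    refine le_trans (card_le_card fun v hv => ?_) (card_image_le (f := vx))
    obtain ⟨y, hy, rfl⟩ := List.mem_map.1 (List.mem_toFinset.1 (hY hv))
    exact mem_image_of_mem _ (mem_filter.2 ⟨List.mem_toFinset.2 hy, hv⟩)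
  have c : (tails V (D.2.1.toFinset.filter fun y => vx y ∈ Y)).card ≤
      (Nb (renD top vx nb D).2.2 Y).card := by
    refine card_le_card_of_injOn top (fun p hp => ?_) (h.injP.mono hc.sP)
    obtain ⟨k, hk, h0, rfl⟩ := mem_tails.1 hp
    exact mem_Nb.2 ⟨_, List.mem_map_of_mem
      (hD.arc.key (List.mem_toFinset.1 (mem_filter.1 hk).1) h0), (mem_filter.1 hk).2, rfl⟩
  have := hd _ _ hc (filter_subset _ _)
  omega

end Vale.Agent.P305EN
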