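import Vale.Agent.P305EN.Link
import Vale.Agent.P305BL.Dis

/-!
# The final dissolution
-/

namespace Vale.Agent.P305EN

open Vale.Agent.P305 Vale.Agent.P305E Vale.Agent.P305C Vale.Agent.P305BL Vale.Agent.P305O
  Vale.Agent.P305N Vale.Agent.P305BG Finset

/-- The live names `N` with their arcs. -/
def allP (N : List ℕ) (inn : Arr Bool) (tl : Arr ℕ) : M Pc :=
  filterP (fun y => !inn.get y) N >>= fun Ps => filterP (fun y => inn.get y) N >>= fun Ys =>
    arcsP tl Ys >>= fun E => pure (Ps, Ys, E)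

@[fun_prop] theorem impl_allP {α : Type} [Rep α] {N : α → List ℕ} {inn : α → Arr Bool}
    {tl : α → Arr ℕ} (h : Pure N) (h1 : Pure inn) (h3 : Pure tl) :
    Impl fun a => allP (N a) (inn a) (tl a) := by
  unfold allP
  fun_prop

theorem allP_tri {c : Cx} {V : Vw} {b : ℕ} {N : List ℕ} {inn : Arr Bool} {tl : Arr ℕ} (ok : V.OK b)
    (hB : 2 ^ b ≤ c.B) (ht : tl.get = V.tl) (hI : ∀ y, inn.get y = true ↔ y ∈ V.I) (nd : N.Nodup)
    (hN : ∀ x, x ∈ N ↔ x ∈ V.I ∨ x ∈ V.P) :
    Tri c (allP N inn tl) fun D t => Piece V D ∧ D.1.toFinset = V.P ∧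
      D.2.1.toFinset = V.I ∧ D.1.length ≤ N.length ∧ D.2.1.length ≤ N.length ∧
      t ≤ 3 * N.length := by
  have e1 : (N.filter fun y => !inn.get y).toFinset = V.P := by
    ext x
    have := ok.dis x
    simp only [List.mem_toFinset, List.mem_filter, hN, Bool.not_eq_true', ← Bool.not_eq_true, hI]
    tauto
  have e2 : (N.filter fun y => inn.get y).toFinset = V.I := by
    ext x
    simp only [List.mem_toFinset, List.mem_filter, hN, hI]
    tauto
  have l1 := List.length_filter_le (fun y => !inn.get y) N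
  have l2 := List.length_filter_le (fun y => inn.get y) N
  simp only [allP, Tri_bind, Tri_filterP, Tri_pure]
  refine (arcsP_tri tl (nd.filter _) fun y hy => ?_).mono fun E t h => ?_
  · have := ok.ltI y (e2 ▸ List.mem_toFinset.2 hy)
    omega
  · refine ⟨⟨⟨nd.filter _, nd.filter _, ?_⟩, ht ▸ h.1⟩, e1, e2, l1, l2, by omega⟩
    simp only [e1, e2]
    exact ⟨subset_rfl, subset_rfl, fun k _ h0 => (ok.arc k h0).1⟩

/-- Everything is dissolved. -/
def fin (bm : ℕ → List Tr → M (List Tr)) (n b : ℕ) (N : List ℕ) (inn : Arr Bool) (tl : Arr ℕ)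
    (top vx nb : ℕ → ℕ) (s : St) (mt : Arr ℕ) : M (Arr ℕ) :=
  allP N inn tl >>= fun D => renP top vx nb D >>= fun D' =>
    dissolve bm n b s D'.1 D'.2.1 D'.2.2 mt >>= fun r => pure r.1

theorem impl_fin {α : Type} [Rep α] {bm : ℕ → List Tr → M (List Tr)}
    (hb : Impl fun p : ℕ × List Tr => bm p.1 p.2) {n b : α → ℕ} {N : α → List ℕ}
    {inn : α → Arr Bool} {tl mt : α → Arr ℕ} {top vx nb : α → ℕ → ℕ} {s : α → St} (h0 : Pure n)
    (h0' : Pure b) (h : Pure N) (h1 : Pure inn) (h3 : Pure tl)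
    (h4 : Pure fun p : α × ℕ => top p.1 p.2) (h5 : Pure fun p : α × ℕ => vx p.1 p.2)
    (h6 : Pure fun p : α × ℕ => nb p.1 p.2) (h7 : Pure s) (h8 : Pure mt) : Impl fun a =>
      fin bm (n a) (b a) (N a) (inn a) (tl a) (top a) (vx a) (nb a) (s a) (mt a) := by
  unfold fin
  refine Impl.bind (by fun_prop) (Impl.bind (by fun_prop) (Impl.bind ?_ (by fun_prop)))
  exact impl_dissolve hb (by fun_prop) (by fun_prop) (by fun_prop) (by fun_prop) (by fun_prop)
    (by fun_prop) (by fun_prop)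

variable {n : ℕ} {A : ℕ → ℕ → Prop} {s : St} {V : Vw} {top vx nb : ℕ → ℕ}

theorem Emb.vts_lt (h : Emb n A s V top vx nb) : ∀ v ∈ vts n s top vx V.P V.I, v < n := by
  intro v hv
  rcases mem_union.1 hv with k | k
  · obtain ⟨p, hp, k⟩ := mem_biUnion.1 k
    exact (h.node p hp).lt v k
  · obtain ⟨y, hy, rfl⟩ := mem_image.1 k
    exact (h.inn y hy).1

theorem Emb.card_I (h : Emb n A s V top vx nb) : V.I.card ≤ n := by
  rw [← card_image_of_injOn h.inj]
  refine (card_le_card fun v hv => mem_range.2 (h.vts_lt v (mem_union_right _ hv))).trans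
    (card_range n).le

theorem fin_vt {bm : ℕ → List Tr → M (List Tr)} {c d B b b' δ : ℕ} {g : ℕ → ℕ}
    (hb : BmOK bm c g) (hG : Gr n A) (hn : n ≤ 2 ^ b) (hc : 2 ^ (c * (b + 1)) ≤ B) (hd : d ≤ b)
    {N : List ℕ} {inn : Arr Bool} {tl mt : Arr ℕ} {R D : Finset ℕ}
    (ok : V.OK b') (hB : 2 ^ b' ≤ B) (ht : tl.get = V.tl)
    (hI : ∀ y, inn.get y = true ↔ y ∈ V.I) (nd : N.Nodup) (hN : ∀ x, x ∈ N ↔ x ∈ V.I ∨ x ∈ V.P)
    (h : Emb n A s V top vx nb) (sp : Split n A mt.get (vts n s top vx V.P V.I) R D)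
    (hδ : ∀ Ps Ys, V.Cls Ps Ys → Ys.card ≤ Ps.card + δ) :
    Vt d B (fin bm n b N inn tl top vx nb s mt) fun m t => Mat A (pm n m) ∧
      ex n m + V.I.card ≤ V.P.card + 2 * δ + D.card ∧
      t ≤ 5 * N.length + 3 * n + (4 * n + 1) * bG g b := by
  refine Vt.tbind (cn := true) (allP_tri ok hB ht hI nd hN) ?_
  rintro C t ⟨c1, c2, c3, c4, c5, c6⟩
  refine Vt.tbind (cn := true) (renP_tri top vx nb C) ?_
  rintro _ _ ⟨rfl, rfl⟩
  have l1 : C.2.2.length ≤ 3 * n := by
    have := c1.arc.len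
    have := h.card_I
    rw [c3] at *
    omega
  have l2 : (renD top vx nb C).2.2.length = C.2.2.length := List.length_map _
  refine (dissolve_vt hb hG hn hc hd (h.nodupP c1) (h.nodupY c1) (h.nodes c1) (h.part c1)
    (by omega) mt).bind ?_
  rw [vts_eq, c2, c3]
  rintro r t' ⟨-, a2, a1, a3, ⟨l, a4, a5⟩, a6⟩
  obtain ⟨m1, m2⟩ := mat_fin hG sp a1 (fun x hx => (a2 x (List.mem_toFinset.1 hx)).2) a3
  have b1 := h.hall ok c1 (fun Ps Ys hc _ => hδ Ps Ys hc) a4
  have b2 := List.toFinset_card_le r.2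
  have b3 : (renD top vx nb C).1.length = V.P.card := by
    rw [← c2, List.toFinset_card_of_nodup c1.cls.1]
    exact List.length_map _
  have b4 : C.2.1.length = V.I.card := by rw [← c3, List.toFinset_card_of_nodup c1.cls.2.1]
  have b5 : (renD top vx nb C).2.1.length = C.2.1.length := List.length_map _
  have b6 : (vts n s top vx V.P V.I).card ≤ n :=
    (card_le_card fun v hv => mem_range.2 (h.vts_lt v hv)).trans (card_range n).le
  have b7 := Nat.mul_le_mul_right (bG g b) (show (vts n s top vx V.P V.I).card +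
    (renD top vx nb C).2.2.length + 1 ≤ 4 * n + 1 by omega)
  exact Vt.pure ⟨m1, by omega, by omega⟩

/-- At the start the exposed vertices are labelled. -/
theorem split_init (hG : Gr n A) {m : ℕ → ℕ} (hm : Mat A m) :
    Split n A m (exposed n m) (range n \ exposed n m) ∅ := by
  have a : ∀ v, v ∈ range n \ exposed n m ↔ v < n ∧ m v ≠ v := fun v => by
    simp only [exposed, mem_sdiff, mem_filter, mem_range]
    tauto
  refine ⟨fun v hv => ?_, fun v hv => ?_, fun v hv => (mem_sdiff.1 hv).2, by simp⟩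
  · by_cases e : v ∈ exposed n m
    · exact Or.inl e
    · exact Or.inr (Or.inl (mem_sdiff.2 ⟨mem_range.2 hv, e⟩))
  · obtain ⟨h1, h2⟩ := (a v).1 hv
    exact ⟨(a _).2 ⟨hm.lt hG h1, fun e => h2 (e.symm.trans (hm.inv v))⟩, hm.inv v, h2, hm.adj v h2⟩

end Vale.Agent.P305EN
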