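import Vale.Agent.P305EN.Math
import Vale.Agent.P305GH.Main

/-!
# The end of a phase: a stall bounds the gap
-/

namespace Vale.Agent.P305EN

open Vale.Agent.P305 Vale.Agent.P305LC Vale.Agent.P305GH Finset

variable {n : ℕ} {A : ℕ → ℕ → Prop}

/-- At a stall the gap `K` is small. `V p`: the vertices of the node `p`, `vx y`: the vertex of the
inner name `y`, `D`: the discarded vertices. -/
theorem stall_gap {H : Hs} {Q F γ γ' R K : ℕ} (h : H.OK Q F γ R) (hQ : 0 < Q)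
    (hs : H.G.Stall γ' 1) (hF : γ' * (4 * H.G.V.card) < F) {V : ℕ → Finset ℕ} {vx : ℕ → ℕ}
    {D : Finset ℕ} (inj : Set.InjOn vx H.I) (odd : ∀ p ∈ H.P, Odd (V p).card)
    (disj : ∀ p ∈ H.P, ∀ q ∈ H.P, p ≠ q → Disjoint (V p) (V q))
    (lt : ∀ p ∈ H.P, ∀ v ∈ V p, v < n)
    (edge : ∀ p ∈ H.P, ∀ u ∈ V p, ∀ w, A u w → w ∈ V p ∨ w ∈ D ∨ ∃ s ∈ H.O, H.nd s = p ∧
      ((s ∈ H.G.slot ∧ s ∉ H.G.scn) ∨ ∃ y ∈ H.I, vx y = w ∧ (s, y, F) ∈ H.G.arcs))
    {m : ℕ → ℕ} (hm : Mat A m) (gap : (exposed n m).card + K ≤ R) :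
    (Q * K : ℤ) ≤ Q * H.wJ + Q * D.card + γ' * (4 * H.G.V.card) := by
  obtain ⟨T, Y, hT, hY, sh, un, le⟩ := h.stall hQ hs hF
  have a := stall_card (n := n) hm (O := H.P) (I := H.I.image vx) (D := D) (S := T)
    (Y := Y.image vx) (V := V) (image_subset_image hY) odd disj lt fun p hp hT u hu w hw => by
      rcases edge p hp u hu w hw with k | k | ⟨s, s1, s2, k | ⟨y, y1, y2, y3⟩⟩
      · exact Or.inl k
      · exact Or.inr (Or.inr k)
      · exact absurd (s2 ▸ un s s1 k.1 k.2) hT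
      · refine Or.inr (Or.inl ⟨y2 ▸ mem_image_of_mem _ y1, fun c => hT ?_⟩)
        obtain ⟨z, z1, z2⟩ := mem_image.1 c
        have e : z = y := inj (hY z1) y1 (z2.trans y2.symm)
        exact s2 ▸ sh s s1 y (e ▸ z1) y3
  rw [card_image_of_injOn inj, card_image_of_injOn (inj.mono hY)] at a
  have b := h.balance
  have c : (K : ℤ) + Y.card ≤ H.wJ + D.card + T.card := by omega
  have d : (Q * T.card : ℤ) ≤ Q * Y.card + γ' * (4 * H.G.V.card) := by exact_mod_cast le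
  have e := mul_le_mul_of_nonneg_left c (Int.natCast_nonneg Q)
  linarith

end Vale.Agent.P305EN
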