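import Vale.Agent.P305EN.Fin
import Vale.Agent.P305EN.Stall
import Vale.Agent.P305GL.Defs

/-!
# The end of a phase
-/

namespace Vale.Agent.P305EN

open Vale.Agent.P305 Vale.Agent.P305E Vale.Agent.P305C Vale.Agent.P305LC Vale.Agent.P305N
  Vale.Agent.P305BL Vale.Agent.P305GH Vale.Agent.P305BG Vale.Agent.P305O Vale.Agent.P305GL Finset

variable {β : Type} [Rep β] {E : Env β} {x : Pm} {s : S} {g : Gs} {cur : Option ℕ} {Nw : List ℕ}

theorem adj_iff (h : Adj3 x.n x.A x.adj) (u w : ℕ) : x.A u w ↔ ∃ i < x.deg u, x.nbr u i = w := by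
  rw [← h.mem]
  have := h.deg u
  unfold Pr.deg Pr.nbr
  generalize x.adj.get u = l at *
  rcases l with _ | ⟨a, _ | ⟨b, _ | ⟨c, _ | ⟨d, l⟩⟩⟩⟩
  · simp
  · simp [eq_comm]
  · simp [Nat.le_one_iff_eq_zero_or_eq_one, eq_comm]
  · simp [Nat.lt_succ_iff, Nat.le_succ_iff, eq_comm, or_comm, or_left_comm]
  · simp only [List.length_cons] at this
    omega

theorem ne_zero (h : Core x s g cur Nw) {y : ℕ} (hy : y ∈ g.V.I ∨ y ∈ g.V.P) : y ≠ 0 := fun e =>
  hy.elim (fun k => h.net.ok.zI (e ▸ k)) fun k => h.net.ok.zP (e ▸ k)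

theorem core_emb (ok : x.OK E) (h : Core x s g cur Nw) :
    Emb x.n x.A s.bs g.V s.top.get s.vn (s.nb x.toPr) := by
  refine ⟨fun p hp => (h.node p hp).1, fun p hp q hq ne => disjoint_left.2 fun v h1 h2 => ne ?_,
    fun y hy z hz e => ?_, fun y hy => ⟨?_, fun p hp c => ?_⟩, fun k hk => ⟨?_, ?_⟩⟩
  · exact (((h.node p hp).2 v).1 h1).symm.trans (((h.node q hq).2 v).1 h2)
  · exact (h.self y (Or.inl hy)).1.symm.trans (e ▸ (h.self z (Or.inl hz)).1)
  · exact (h.own _ ((h.self y (Or.inl hy)).1.symm ▸ ne_zero h (Or.inl hy))).1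
  · exact h.net.ok.dis y hy
      (((h.self y (Or.inl hy)).1.symm.trans (((h.node p hp).2 _).1 c)).symm ▸ hp)
  · exact ((h.node _ (h.net.ok.arc k hk).1).2 _).2 (h.arc k hk).2
  · exact ok.adj.gr.symm ((adj_iff ok.adj _ _).2 ⟨_, (h.arc k hk).1, rfl⟩)

theorem inner_vn (h : Core x s g cur Nw) {v : ℕ} (hv : s.own.get v ∈ g.V.I) :
    s.vn (s.own.get v) = v := by
  have := (h.own v (ne_zero h (Or.inl hv))).2.2.2.2
  rwa [h.inn v hv] at this

theorem core_vts (h : Core x s g cur Nw) (v : ℕ) :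
    v ∈ vts x.n s.bs s.top.get s.vn g.V.P g.V.I ↔ s.own.get v ≠ 0 := by
  simp only [vts, mem_union, mem_biUnion, mem_image]
  constructor
  · rintro (⟨p, hp, k⟩ | ⟨y, hy, rfl⟩)
    · exact ((h.node p hp).2 v).1 k ▸ ne_zero h (Or.inr hp)
    · exact (h.self y (Or.inl hy)).1.symm ▸ ne_zero h (Or.inl hy)
  · intro hv
    rcases (h.own v hv).2.1 with k | k
    · exact Or.inr ⟨_, k, inner_vn h k⟩
    · exact Or.inl ⟨_, k, ((h.node _ k).2 v).2 rfl⟩

theorem core_split (h : Core x s g cur Nw) : Split x.n x.A s.mt.get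
    (vts x.n s.bs s.top.get s.vn g.V.P g.V.I) (s.un x.n) (s.disc x.n) := by
  refine ⟨fun v hv => ?_, h.pmo, fun v hv => ?_, fun v hv _ _ => (mem_filter.1 hv).2.2⟩
  · simp only [core_vts h, S.un, S.disc, mem_filter, mem_range]
    tauto
  · rw [core_vts h, not_not]
    exact (mem_filter.1 hv).2.1

/-- The volume of the junk is at most the number of the copies in the junk. -/
theorem core_vj (h : Core x s g cur Nw) : (g.vj : ℤ) ≤ (2 * x.Γ * x.Q + 1 : ℕ) * g.H.wJ := by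
  have a : (Ioo 0 s.nc).image (4 * ·) ⊆
      (g.H.J.filter fun v => g.H.w v ≠ 0) ∪ (s.live x.n).image s.cid.get := by
    intro z hz
    obtain ⟨j, hj, rfl⟩ := mem_image.1 hz
    have v := h.cop j (mem_Ioo.1 hj).1 (mem_Ioo.1 hj).2
    have liv : s.own.get (s.vn (4 * j)) ≠ 0 → s.cid.get (s.vn (4 * j)) = 4 * j →
        4 * j ∈ (s.live x.n).image s.cid.get := fun a c =>
      mem_image.2 ⟨_, mem_filter.2 ⟨mem_range.2 (h.own _ a).1, a⟩, c⟩
    rcases (h.gh.memV _).1 v with k | k | k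
    · exact mem_union_left _ (mem_filter.2 ⟨k, fun e => (h.rng _ v).2.1 e (by omega)⟩)
    · have k' := h.self _ (Or.inl (h.lk.I ▸ k))
      exact mem_union_right _ (liv (k'.1.symm ▸ ne_zero h (Or.inl (h.lk.I ▸ k))) k'.2)
    · have k' := h.lk.nd_ne h.net.ok k
      rw [h.ndO _ k, S.res] at k'
      split_ifs at k' with e
      · have := (h.own _ k').2.2.1
        exact mem_union_right _ (liv k' (by omega))
      · exact absurd rfl k'
  have b := (card_le_card a).trans ((card_union_le _ _).trans (Nat.add_le_add_left card_image_le _))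
  rw [card_image_of_injective _ (fun i j e => by simpa using e), Nat.card_Ioo] at b
  have c := h.gh.copies_junk
  have d := h.cnt
  push_cast
  omega

theorem core_acc (ok : x.OK E) (h : Core x s g cur Nw) : g.vj ≤ x.Vx ∧ 16 * g.st ≤ s.cm ∧
    8 * g.ls ≤ s.cm ∧ 8 * g.be ≤ x.U * s.cm := by
  have a := h.acc.junk (core_vj h) ok.V3 (by omega)
  have G := ok.big
  have b := h.acc.lost (core_vj h) ok.V3 (by omega) ok.V1 (Nat.le_self_pow (by omega) _)
    (Nat.pow_pos (by omega))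
  exact ⟨a.1.trans ((Nat.mul_le_mul_left _ h.cm).trans ok.Vx), a.2, b.1, b.2.1⟩

theorem live_le (s : S) (n : ℕ) : (s.live n).card ≤ n :=
  (card_filter_le _ _).trans (card_range n).le

theorem deg_le3 (p : Pr) (v : ℕ) : p.deg v ≤ 3 := by
  unfold Pr.deg
  split_ifs <;> omega

/-- **A stall excludes the gap.** -/
theorem stall : STALL := by
  intro β _ E x σ g φ γ ok h hγ hs m hm
  have h := h.core
  have e := core_emb ok h
  obtain ⟨a1, a2, -⟩ := core_acc ok h
  have cV : g.H.G.V.card ≤ 4 * (x.n + x.Vx + 1) := by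
    have := (card_le_card fun a ha => mem_range.2 (h.rng a ha).1).trans (card_range _).le
    have := h.cnt
    have := live_le σ.1 x.n
    omega
  have cG : γ * (4 * g.H.G.V.card) ≤ x.Γ * (16 * (x.n + x.Vx + 1)) :=
    Nat.mul_le_mul hγ (by omega)
  by_contra hc
  have k := stall_gap (n := x.n) (A := x.A) (K := x.K) h.gh ok.Q0 hs (cG.trans_lt ok.inf)
    (V := fun p => σ.1.bs.V x.n (σ.1.top.get p)) (vx := σ.1.vn) (D := σ.1.disc x.n)
    (h.lk.I ▸ e.inj) (fun p hp => (e.node p (h.lk.P ▸ hp)).odd) (h.lk.P ▸ e.disj)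
    (fun p hp => (e.node p (h.lk.P ▸ hp)).lt) (fun p hp u hu w hw => ?_) hm (not_lt.1 hc)
  · rw [h.dis, h.acc.wt] at k
    have c1 : (γ : ℤ) * (4 * g.H.G.V.card) ≤ x.Γ * (16 * (x.n + x.Vx + 1)) := by exact_mod_cast cG
    have c2 : (3 * x.c * x.Q : ℤ) + x.Γ * (16 * (x.n + x.Vx + 1)) < x.K * x.Q := by
      exact_mod_cast ok.gap
    have c3 : (2 * σ.1.cm + 2 * g.st : ℤ) ≤ 3 * x.c := by have := h.cm; omega
    have c4 := mul_le_mul_of_nonneg_left c3 (Int.natCast_nonneg x.Q)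
    push_cast at k
    linarith
  · have hp' : p ∈ g.V.P := h.lk.P ▸ hp
    have ou := ((h.node p hp').2 u).1 hu
    have p0 := ne_zero h (Or.inr hp')
    obtain ⟨i, hi, rfl⟩ := (adj_iff ok.adj u w).1 hw
    rcases h.pend u (ou ▸ hp') i hi with (k | k | ⟨j, j1, j2⟩) | k | k | k
    · exact Or.inl (((h.node p hp').2 _).2 (k.trans ou))
    · exact Or.inr (Or.inl (mem_filter.2 ⟨mem_range.2 (ok.adj.gr.lt (ok.adj.gr.symm hw)), k⟩))
    · have j0 : g.V.tl j ≠ 0 := by rwa [j2, ou]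
      obtain ⟨a, b1, b2, b3⟩ := h.lk.toG j j0
      have jI := (h.net.ok.arc j j0).2
      exact Or.inr (Or.inr ⟨a, b1, b2.trans (j2.trans ou), Or.inr ⟨j / 3, h.lk.I ▸ jI,
        j1 ▸ inner_vn h (j1 ▸ jI), b3⟩⟩)
    · obtain ⟨-, -, c1, -, c2⟩ := h.own u (ou ▸ p0)
      have := deg_le3 x.toPr u
      have q : (σ.1.cid.get u + 1 + i) / 4 = σ.1.cid.get u / 4 := by omega
      have r : σ.1.res (σ.1.cid.get u + 1 + i) = p := by
        have : σ.1.vn (σ.1.cid.get u + 1 + i) = u := by rw [S.vn, q]; exact c2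
        rw [S.res, this, if_pos q.symm, ou]
      have sl := (h.gh.sl _).1 k.1
      rcases (h.gh.memV _).1 sl.1 with z | z | z
      · exact absurd ((h.jk _ z).symm.trans r).symm p0
      · have := h.gh.wI _ z
        omega
      · exact Or.inr (Or.inr ⟨_, z, (h.ndO _ z).trans r, Or.inl k⟩)
    · exact absurd k (by simp)
    · exact absurd k (by simp)

/-- The sizes of different live names add up to at most `n`. -/
theorem sum_sz (h : Core x s g cur Nw) {T : Finset ℕ} (hT : ∀ y ∈ T, y ∈ g.V.I ∨ y ∈ g.V.P) :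
    ∑ y ∈ T, s.sz.get y ≤ x.n := by
  have a : ∀ y ∈ T, s.sz.get y = ((range x.n).filter fun v => s.own.get v = y).card := by
    intro y hy
    obtain ⟨a1, a2, a3⟩ := h.mem y (hT y hy)
    rw [a3, ← List.toFinset_card_of_nodup a1]
    refine congrArg card (Finset.ext fun v => ?_)
    simp only [List.mem_toFinset, a2, mem_filter, mem_range]
    exact ⟨fun e => ⟨(h.own v (e ▸ ne_zero h (hT y hy))).1, e⟩, fun e => e.2⟩
  rw [sum_congr rfl a, sum_card_fiberwise_eq_card_filter]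
  exact (card_filter_le _ _).trans (card_range _).le

/-- The program. -/
def finalP (bm : ℕ → List Tr → M (List Tr)) (p : Pr) (s : S) : M (Arr ℕ) :=
  rangeP p.n >>= fun L =>
    filterP (fun v => decide (s.own.get v ≠ 0) && decide (s.cid.get v = s.own.get v)) L >>=
    fun L' => mapP (fun v => s.own.get v) L' >>= fun N =>
    fin bm p.n p.b N s.ns.inn s.ns.tl s.top.get s.vn (s.nb p) s.bs s.mt

/-- **The final dissolution gains `c`.** -/
theorem final : FINAL := by
  intro β _ E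
  refine ⟨finalP E.bm, ?_, fun x σ g cur φ ok h hc => ?_⟩
  · unfold finalP
    refine Impl.bind (by fun_prop) (Impl.bind (by fun_prop) (Impl.bind (by fun_prop) ?_))
    exact impl_fin E.hB.impl (by fun_prop) (by fun_prop) (by fun_prop) (by fun_prop) (by fun_prop)
      (by fun_prop) (by fun_prop) (by fun_prop) (by fun_prop) (by fun_prop)
  have h := h.core
  obtain ⟨-, -, a3, a4⟩ := core_acc ok h
  rw [hc] at a3 a4
  unfold finalP
  refine Vt.tbind' ?_
  simp only [Tri_rangeP]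
  refine Vt.tbind' ?_
  simp only [Tri_filterP]
  refine Vt.tbind' ?_
  simp only [Tri_mapP, List.length_range]
  obtain ⟨L, hL⟩ : ∃ L, L = (List.range x.n).filter fun v =>
    decide (σ.1.own.get v ≠ 0) && decide (σ.1.cid.get v = σ.1.own.get v) := ⟨_, rfl⟩
  rw [← hL]
  have mL : ∀ v, v ∈ L ↔ v < x.n ∧ σ.1.own.get v ≠ 0 ∧ σ.1.cid.get v = σ.1.own.get v := by
    simp [hL]
  have lL : L.length ≤ x.n := hL ▸ (List.length_filter_le _ _).trans List.length_range.le
  have sz := ok.sz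
  have wd : 2 ^ x.b ≤ x.B := le_trans ((Nat.pow_le_pow_left (by omega) _).trans
    (Nat.pow_le_pow_right (by omega) (by omega))) ok.wd
  refine (fin_vt (δ := x.c / 4) E.hB ok.adj.gr (by omega) ok.wB le_rfl h.net.ok wd h.net.tl
    h.net.inn ((hL ▸ List.nodup_range.filter _ : L.Nodup).map_on fun u hu v hv e => ?_)
    (fun y => ?_) (core_emb ok h) (core_split h) fun Ps Ys c => ?_).mono fun o t k => ?_
  · obtain ⟨-, u1, u2⟩ := (mL u).1 hu
    obtain ⟨-, v1, v2⟩ := (mL v).1 hv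
    rw [← (h.own u u1).2.2.2.2, u2, e, ← v2, (h.own v v1).2.2.2.2]
  · rw [List.mem_map]
    refine ⟨fun ⟨v, hv, e⟩ => e ▸ (h.own v ((mL v).1 hv).2.1).2.1, fun hy => ?_⟩
    obtain ⟨b1, b2⟩ := h.self y hy
    have b3 : σ.1.own.get (σ.1.vn y) ≠ 0 := b1.symm ▸ ne_zero h hy
    exact ⟨_, (mL _).2 ⟨(h.own _ b3).1, b3, b2.trans b1.symm⟩, b1⟩
  · have b1 := h.hall Ps Ys c
    have b2 := sum_sz h (T := Ps ∪ Ys) fun y hy => (mem_union.1 hy).elim
      (fun k => Or.inr (c.sP k)) fun k => Or.inl (c.sI k)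
    rw [sum_union (disjoint_right.2 fun y k k' => h.net.ok.dis y (c.sI k) (c.sP k'))] at b2
    have b3 := Nat.mul_le_mul_left x.al b2
    have b4 := ok.gain
    have b5 : x.U * (4 * Ys.card) ≤ x.U * (4 * Ps.card + x.c) := by
      rw [mul_assoc] at b4
      rw [mul_add, mul_left_comm, mul_left_comm x.U]
      omega
    have := Nat.le_of_mul_le_mul_left b5 h.net.upos
    omega
  · obtain ⟨k1, k2, k3⟩ := k
    have b1 := h.gh.balance
    rw [h.acc.wt, h.lk.P, h.lk.I, hc] at b1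
    rw [h.dis] at k2
    refine ⟨k1, by omega, ?_⟩
    have b2 := Nat.mul_le_mul_left (4 * x.n + 1) (show bG E.gB x.b ≤ x.Γ from ok.gB)
    have b3 := ok.big
    rw [List.length_map] at k3
    nlinarith [Nat.mul_le_mul b3 b3, Nat.mul_le_mul_right (x.Γ * x.n) b3,
      Nat.mul_le_mul_right x.n b3, Nat.mul_le_mul_right x.Γ b3]

end Vale.Agent.P305EN
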