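import Vale.Agent.P305BL.Hall
import Vale.Agent.P305O.Defs

/-!
# The end of a phase: counting
-/

namespace Vale.Agent.P305EN

open Vale.Agent.P305 Vale.Agent.P305E Vale.Agent.P305C Vale.Agent.P305BL Vale.Agent.P305O Finset

variable {n : ℕ} {A : ℕ → ℕ → Prop}

/-- The vertices are split into `W` (labelled), `R` (perfectly matched by `m`) and `D` (discarded,
exposed). -/
structure Split (n : ℕ) (A : ℕ → ℕ → Prop) (m : ℕ → ℕ) (W R D : Finset ℕ) : Prop where
  cov : ∀ v < n, v ∈ W ∨ v ∈ R ∨ v ∈ D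
  pmo : PMon A R m
  dR : ∀ v ∈ R, v ∉ W
  fix : ∀ v ∈ D, v ∉ W → v ∉ R → m v = v

/-- The partner array after the labelled part was dissolved. -/
theorem mat_fin (hG : Gr n A) {mt : ℕ → ℕ} {m : Arr ℕ} {W R D X : Finset ℕ}
    (h : Split n A mt W R D) (hp : PMon A (W \ X) m.get) (hx : ∀ x ∈ X, m.get x = x)
    (ho : ∀ v, v ∉ W → m.get v = mt v) : Mat A (pm n m) ∧ ex n m ≤ X.card + D.card := by
  have key : ∀ v < n, (m.get v = v ∧ (v ∈ X ∨ v ∈ D)) ∨
      (m.get (m.get v) = v ∧ m.get v ≠ v ∧ A v (m.get v)) := fun v hv => by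
    by_cases hX : v ∈ X
    · exact Or.inl ⟨hx v hX, Or.inl hX⟩
    by_cases hW : v ∈ W
    · exact Or.inr (hp v (mem_sdiff.2 ⟨hW, hX⟩)).2
    by_cases hR : v ∈ R
    · obtain ⟨a1, a2, a3, a4⟩ := h.pmo v hR
      rw [ho v hW, ho _ (h.dR _ a1)]
      exact Or.inr ⟨a2, a3, a4⟩
    · have hD : v ∈ D := ((h.cov v hv).resolve_left hW).resolve_left hR
      exact Or.inl ⟨(ho v hW).trans (h.fix v hD hW hR), Or.inr hD⟩
  refine ⟨⟨fun v => ?_, fun v hv => ?_⟩, ?_⟩
  · by_cases hv : v < n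
    · rcases key v hv with k | k
      · rw [pm_lt _ hv, k.1, pm_lt _ hv, k.1]
      · rw [pm_lt _ hv, pm_lt _ (hG.lt (hG.symm k.2.2)), k.1]
    · rw [pm_ge _ (not_lt.1 hv), pm_ge _ (not_lt.1 hv)]
  · by_cases hv' : v < n
    · rw [pm_lt _ hv'] at hv ⊢
      exact ((key v hv').resolve_left fun k => hv k.1).2.2
    · exact absurd (pm_ge _ (not_lt.1 hv')) hv
  · refine le_trans (card_le_card fun v hv => ?_) (card_union_le X D)
    obtain ⟨h1, h2⟩ := mem_filter.1 hv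
    have h3 := mem_range.1 h1
    rw [pm_lt _ h3] at h2
    exact mem_union.2 ((key v h3).resolve_right fun k => k.2.1 h2).2

/-- At a stall: the nodes outside `S` have no edge to unlabelled vertices, to other nodes or
to `Y`. -/
theorem stall_card {m : ℕ → ℕ} (hm : Mat A m) {O I D S Y : Finset ℕ} {V : ℕ → Finset ℕ}
    (hY : Y ⊆ I) (odd : ∀ p ∈ O, Odd (V p).card)
    (disj : ∀ p ∈ O, ∀ q ∈ O, p ≠ q → Disjoint (V p) (V q)) (lt : ∀ p ∈ O, ∀ v ∈ V p, v < n)
    (edge : ∀ p ∈ O, p ∉ S → ∀ u ∈ V p, ∀ w, A u w → w ∈ V p ∨ (w ∈ I ∧ w ∉ Y) ∨ w ∈ D) :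
    O.card + Y.card ≤ (exposed n m).card + I.card + D.card + S.card := by
  have h := tb (n := n) hm (O \ S) V ((I \ Y) ∪ D) (fun p hp => odd p (mem_sdiff.1 hp).1)
    (fun p hp q hq => disj p (mem_sdiff.1 hp).1 q (mem_sdiff.1 hq).1)
    (fun p hp => lt p (mem_sdiff.1 hp).1) fun p hp u hu w hw => by
      rcases edge p (mem_sdiff.1 hp).1 (mem_sdiff.1 hp).2 u hu w hw with k | k | k
      · exact Or.inl k
      · exact Or.inr (mem_union_left _ (mem_sdiff.2 k))
      · exact Or.inr (mem_union_right _ k)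
  have a := card_union_le (I \ Y) D
  have b := card_sdiff_add_card_eq_card hY
  have c := le_card_sdiff S O
  omega

end Vale.Agent.P305EN
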